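import Vale.Agent.P153DN.Defs

/-!
Local expansions of test functions, and a countable separating family.
-/

set_option autoImplicit false

namespace Vale.Agent.P153DN

open MeasureTheory Filter Topology Set TopologicalSpace
open Vale.Agent.P153D

theorem wt1 (k : Fin 2 → ℤ) : 1 ≤ wt k := by
  have := abs_nonneg (k 0 : ℝ)
  have := abs_nonneg (k 1 : ℝ)
  unfold wt
  linarith

theorem wt_sum : Summable fun k => (wt k ^ 3)⁻¹ := by
  refine (EisensteinSeries.summable_one_div_norm_rpow (k := 3)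
    (by norm_num)).of_norm_bounded_eventually ?_
  filter_upwards [eventually_cofinite_ne 0] with k hk
  have p : 0 < ‖k‖ := norm_pos_iff.2 hk
  have q := wt1 k
  have h : ‖k‖ ≤ wt k := by
    refine (pi_norm_le_iff_of_nonneg (by linarith)).2 (Fin.forall_fin_two.2 ⟨?_, ?_⟩)
    all_goals
      have := abs_nonneg (k 0 : ℝ)
      have := abs_nonneg (k 1 : ℝ)
      rw [Int.norm_eq_abs, wt]
      linarith
  rw [Real.norm_of_nonneg (by positivity), Real.rpow_neg p.le,
    show (3 : ℝ) = (3 : ℕ) by norm_num, Real.rpow_natCast]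
  gcongr

/-- The phase as a linear map. -/
noncomputable def lin (L : ℝ) (k : Fin 2 → ℤ) : ℂ →L[ℝ] ℝ :=
  (2 * Real.pi * k 0 / L) • Complex.reCLM + (2 * Real.pi * k 1 / L) • Complex.imCLM

theorem lin_apply (L : ℝ) (k : Fin 2 → ℤ) (x : ℂ) : lin L k x = th L k x := by
  simp only [lin, th, add_apply, smul_apply,
    Complex.reCLM_apply, Complex.imCLM_apply, smul_eq_mul]
  ring

theorem lin_norm {L : ℝ} (hL : 0 < L) (k : Fin 2 → ℤ) : ‖lin L k‖ ≤ 2 * Real.pi / L * wt k := by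
  have q := wt1 k
  have p := Real.pi_pos
  refine ContinuousLinearMap.opNorm_le_bound _ (by positivity) fun x => ?_
  have h : |k 0 * x.re + k 1 * x.im| ≤ wt k * ‖x‖ := by
    refine (abs_add_le _ _).trans ?_
    have a := mul_le_mul_of_nonneg_left (Complex.abs_re_le_norm x) (abs_nonneg (k 0 : ℝ))
    have b := mul_le_mul_of_nonneg_left (Complex.abs_im_le_norm x) (abs_nonneg (k 1 : ℝ))
    have := norm_nonneg x
    rw [abs_mul, abs_mul, wt]
    linarith
  rw [lin_apply, th, Real.norm_eq_abs, abs_div, abs_mul, abs_of_pos hL,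
    abs_of_pos (by positivity : 0 < 2 * Real.pi)]
  calc _ ≤ 2 * Real.pi * (wt k * ‖x‖) / L := by gcongr
    _ = _ := by ring

theorem cd_th {g : ℝ → ℝ} (hg : ContDiff ℝ ((⊤ : ℕ∞) : WithTop ℕ∞) g) (L : ℝ) (k : Fin 2 → ℤ) :
    ContDiff ℝ ((⊤ : ℕ∞) : WithTop ℕ∞) fun y => g (th L k y) := by
  simpa only [Function.comp_def, lin_apply] using hg.comp (lin L k).contDiff

theorem der {g : ℝ → ℝ} (hg : ContDiff ℝ ((⊤ : ℕ∞) : WithTop ℕ∞) g)
    (hb : ∀ n x, |iteratedDeriv n g x| ≤ 1) {L : ℝ} (hL : 0 < L) (k : Fin 2 → ℤ) (i : ℕ) (x : ℂ) :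
    ‖iteratedFDeriv ℝ i (fun y => g (th L k y)) x‖ ≤ (2 * Real.pi / L * wt k) ^ i := by
  have e : (fun y => g (th L k y)) = g ∘ lin L k := by
    funext y
    simp only [Function.comp_def, lin_apply]
  rw [e, (lin L k).iteratedFDeriv_comp_right hg x (by exact_mod_cast le_top)]
  refine (ContinuousMultilinearMap.norm_compContinuousLinearMap_le _ _).trans ?_
  rw [norm_iteratedFDeriv_eq_norm_iteratedDeriv, Finset.prod_const, Finset.card_univ,
    Fintype.card_fin]
  calc _ ≤ 1 * (2 * Real.pi / L * wt k) ^ i := by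
        gcongr
        · exact hb _ _
        · exact lin_norm hL k
    _ = _ := one_mul _

theorem bdd {f : ℂ → ℝ} (hf : ContDiff ℝ ((⊤ : ℕ∞) : WithTop ℕ∞) f) (hs : HasCompactSupport f)
    (i : ℕ) : ∃ D : ℝ, ∀ x, ‖iteratedFDeriv ℝ i f x‖ ≤ D :=
  (hf.continuous_iteratedFDeriv (by exact_mod_cast le_top)).bounded_above_of_compact_support
    (hs.iteratedFDeriv i)

theorem der_mul {f : ℂ → ℝ} (hf : ContDiff ℝ ((⊤ : ℕ∞) : WithTop ℕ∞) f) (hs : HasCompactSupport f)
    {g : ℝ → ℝ} (hg : ContDiff ℝ ((⊤ : ℕ∞) : WithTop ℕ∞) g)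
    (hb : ∀ n x, |iteratedDeriv n g x| ≤ 1) {L : ℝ} (hL : 0 < L) (i : ℕ) : ∃ C : ℝ, ∀ k x,
    ‖iteratedFDeriv ℝ i (fun y => f y * g (th L k y)) x‖ ≤ C * wt k ^ i := by
  choose D hD using bdd hf hs
  have p := Real.pi_pos
  refine ⟨∑ j ∈ Finset.range (i + 1), (i.choose j : ℝ) * D j * (2 * Real.pi / L) ^ (i - j),
    fun k x => (norm_iteratedFDeriv_mul_le hf (cd_th hg L k) x
      (by exact_mod_cast le_top)).trans ?_⟩
  rw [Finset.sum_mul]
  refine Finset.sum_le_sum fun j _ => ?_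
  have q := wt1 k
  have d := (norm_nonneg _).trans (hD j x)
  calc _ ≤ (i.choose j : ℝ) * D j * (2 * Real.pi / L * wt k) ^ (i - j) := by
        gcongr
        · exact hD j x
        · exact der hg hb hL k _ x
    _ = (i.choose j : ℝ) * D j * (2 * Real.pi / L) ^ (i - j) * wt k ^ (i - j) := by
        rw [mul_pow, ← mul_assoc]
    _ ≤ _ := by
        gcongr
        exact Nat.sub_le _ _

theorem ev_sum {Ω : Opens ℂ} {ι : Type} {a : ι → ℝ} {ψ : ι → Te Ω} {φ : Te Ω}
    (h : HasSum (fun k => a k • ψ k) φ) (T : Di Ω) : HasSum (fun k => a k * T (ψ k)) (T φ) := by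
  have := h.map T (map_continuous T)
  simpa only [Function.comp_def, map_smul, smul_eq_mul] using this

theorem nuc_of (h1 : FOU2) (h2 : SYN) : NUC := by
  intro Ω K hK hΩ
  obtain ⟨K', hK', i1, i2⟩ := exists_compact_between hK Ω.isOpen hΩ
  obtain ⟨χ, c0, c1, -⟩ := exists_contMDiffMap_zero_one_of_isClosed (n := ⊤)
    (modelWithCornersSelf ℝ ℂ) (s := (interior K')ᶜ) (t := K) isOpen_interior.isClosed_compl
    hK.isClosed (disjoint_compl_left_iff_subset.2 i1)
  have cd : ContDiff ℝ ((⊤ : ℕ∞) : WithTop ℕ∞) χ := χ.contMDiff.contDiff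
  have z : ∀ x, x ∉ K' → χ x = 0 := fun x hx => c0 fun h => hx (interior_subset h)
  have sup : ∀ g : ℂ → ℝ, tsupport (fun x => χ x * g x) ⊆ K' := fun g =>
    closure_minimal (fun x hx => by_contra fun h => hx (by simp only [z x h, zero_mul]))
      hK'.isClosed
  obtain ⟨r, r0, hr⟩ := hK'.isBounded.subset_ball_lt 0 0
  obtain ⟨C, hC⟩ := h1 r r0
  let tf : ∀ g : ℝ → ℝ, ContDiff ℝ ((⊤ : ℕ∞) : WithTop ℕ∞) g → (Fin 2 → ℤ) → Te Ω :=
    fun g hg k => ⟨fun x => χ x * g (th (4 * r) k x), cd.mul (cd_th hg _ k),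
      hK'.of_isClosed_subset (isClosed_tsupport _) (sup _), (sup _).trans i2⟩
  let ψ : (Fin 2 → ℤ) ⊕ (Fin 2 → ℤ) → Te Ω :=
    Sum.elim (tf Real.cos Real.contDiff_cos) (tf Real.sin Real.contDiff_sin)
  have w1 : ∀ k, 1 ≤ Sum.elim wt wt k := Sum.forall.2 ⟨wt1, wt1⟩
  have ws : Summable fun k => (Sum.elim wt wt k ^ 3)⁻¹ :=
    (HasSum.sum (f := fun k => (Sum.elim wt wt k ^ 3)⁻¹) wt_sum.hasSum wt_sum.hasSum).summable
  have syn := h2 Ω K' hK' i2 _ (Sum.elim wt wt) ψ w1 ws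
    (Sum.forall.2 ⟨fun _ => sup _, fun _ => sup _⟩) fun i => by
      have hs : HasCompactSupport χ := HasCompactSupport.intro hK' z
      obtain ⟨A, hA⟩ := der_mul cd hs Real.contDiff_cos Real.abs_iteratedDeriv_cos_le_one
        (L := 4 * r) (by positivity) i
      obtain ⟨B, hB⟩ := der_mul cd hs Real.contDiff_sin Real.abs_iteratedDeriv_sin_le_one
        (L := 4 * r) (by positivity) i
      refine ⟨max A B, Sum.forall.2 ⟨fun k x => (hA k x).trans ?_, fun k x => (hB k x).trans ?_⟩⟩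
      · exact mul_le_mul_of_nonneg_right (le_max_left _ _) (pow_nonneg (zero_le_one.trans (wt1 k)) _)
      · exact mul_le_mul_of_nonneg_right (le_max_right _ _)
          (pow_nonneg (zero_le_one.trans (wt1 k)) _)
  refine ⟨_, inferInstance, Sum.elim wt wt, ψ, w1, ws, syn, fun m => ⟨C m, fun φ hφ => ?_⟩⟩
  obtain ⟨c, hc, hb⟩ := hC φ φ.contDiff (hφ.trans (i1.trans (interior_subset.trans hr)))
  let a : (Fin 2 → ℤ) ⊕ (Fin 2 → ℤ) → ℝ := Sum.elim (fun k => (c k).re) fun k => -(c k).im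
  have ha : ∀ m B, Bd m φ B → ∀ k, |a k| * Sum.elim wt wt k ^ m ≤ C m * B := fun m B h =>
    Sum.forall.2 ⟨fun k => (mul_le_mul_of_nonneg_right (Complex.abs_re_le_norm _)
      (pow_nonneg (zero_le_one.trans (wt1 k)) _)).trans (hb m B h k),
      fun k => (mul_le_mul_of_nonneg_right ((abs_neg _).trans_le (Complex.abs_im_le_norm _))
      (pow_nonneg (zero_le_one.trans (wt1 k)) _)).trans (hb m B h k)⟩
  obtain ⟨φ', h'⟩ := syn a fun m => by
    choose D hD using bdd φ.contDiff φ.hasCompactSupport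
    exact ⟨_, ha m (∑ j ∈ Finset.range (m + 1), D j) fun i hi x => (hD i x).trans
      (Finset.single_le_sum (fun j _ => (norm_nonneg _).trans (hD j x))
        (Finset.mem_range.2 (Nat.lt_succ_of_le hi)))⟩
  refine ⟨a, ?_, ha m⟩
  suffices e : φ' = φ from e ▸ h'
  ext x
  have s := ev_sum h' (Distribution.delta x)
  simp only [Distribution.delta_apply] at s
  have sl := (s.summable.comp_injective Sum.inl_injective).hasSum
  have sr := (s.summable.comp_injective Sum.inr_injective).hasSum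
  have t : HasSum (fun k => χ x * (c k * Complex.exp (th (4 * r) k x * Complex.I)).re)
      (χ x * φ x) := by
    by_cases hx : x ∈ K'
    · simpa only [Complex.ofReal_re] using (Complex.hasSum_re (hc x (hr hx))).mul_left (χ x)
    · simpa only [z x hx, zero_mul] using hasSum_zero
  have u : χ x * φ x = φ x := by
    by_cases hx : x ∈ K
    · rw [c1 hx, Pi.one_apply, one_mul]
    · rw [image_eq_zero_of_notMem_tsupport fun h => hx (hφ h), mul_zero]
  rw [s.unique (HasSum.sum sl sr), ← u]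
  refine (sl.add sr).unique (Eq.mp (congrArg (HasSum · _) (funext fun k => ?_)) t)
  show _ = (c k).re * (χ x * Real.cos (th (4 * r) k x)) +
    -(c k).im * (χ x * Real.sin (th (4 * r) k x))
  rw [Complex.mul_re, Complex.exp_ofReal_mul_I_re, Complex.exp_ofReal_mul_I_im]
  ring

theorem exh (Ω : Opens ℂ) : ∃ K : ℕ → Set ℂ, (∀ l, IsCompact (K l) ∧ K l ⊆ Ω) ∧
    ∀ L : Set ℂ, IsCompact L → L ⊆ Ω → ∃ l, L ⊆ K l := by
  have := Ω.isOpen.locallyCompactSpace
  let X := CompactExhaustion.choice Ω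
  refine ⟨fun l => Subtype.val '' X l, fun l => ⟨(X.isCompact l).image continuous_subtype_val,
    Subtype.coe_image_subset _ _⟩, fun L hL h => ?_⟩
  obtain ⟨l, hl⟩ := X.exists_superset_of_isCompact (s := Subtype.val ⁻¹' L)
    (Topology.IsInducing.subtypeVal.isCompact_preimage' hL (by rwa [Subtype.range_coe]))
  exact ⟨l, fun x hx => ⟨⟨x, h hx⟩, hl hx, rfl⟩⟩

theorem sep_of (h : NUC) : SEP := by
  intro Ω
  obtain ⟨K, hK, cov⟩ := exh Ω
  choose ι cι w ψ _ _ _ dec using fun l => h Ω (K l) (hK l).1 (hK l).2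
  obtain ⟨φ, hφ⟩ := ((countable_iUnion fun l => countable_range (ψ l)).insert 0).exists_eq_range
    (insert_nonempty _ _)
  refine ⟨φ, fun T T' e => DFunLike.ext _ _ fun f => ?_⟩
  obtain ⟨l, hl⟩ := cov _ f.hasCompactSupport f.tsupport_subset
  obtain ⟨C, hC⟩ := dec l 0
  obtain ⟨c, hc, -⟩ := hC f hl
  refine (ev_sum hc T).unique (Eq.mp (congrArg (HasSum · _) (funext fun k => ?_)) (ev_sum hc T'))
  obtain ⟨n, hn⟩ : ψ l k ∈ range φ := hφ ▸ mem_insert_of_mem _ (mem_iUnion.2 ⟨l, k, rfl⟩)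
  rw [← hn, e n]

end Vale.Agent.P153DN
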