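import Vale.Agent.P153D.Props

/-!
Fourier series in a disc, with the same coefficients for all orders.
-/

set_option autoImplicit false

namespace Vale.Agent.P153DN

open Vale.Agent.P153D

/-- Fourier series in a disc. -/
def FOU2 : Prop := ∀ r : ℝ, 0 < r → ∃ C : ℕ → ℝ, ∀ φ : ℂ → ℝ,
  ContDiff ℝ ((⊤ : ℕ∞) : WithTop ℕ∞) φ → tsupport φ ⊆ Metric.ball 0 r →
    ∃ c : (Fin 2 → ℤ) → ℂ,
      (∀ x ∈ Metric.ball (0 : ℂ) r,
        HasSum (fun k => c k * Complex.exp (th (4 * r) k x * Complex.I)) (φ x)) ∧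
      ∀ m B, Bd m φ B → ∀ k, ‖c k‖ * wt k ^ m ≤ C m * B

end Vale.Agent.P153DN
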